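import Vale.Agent.N273.Defs
import Vale.Agent.P273.Bdl.B1

/-!
The bridge from the strata algebra and Pixton's span of this folder to the formal combinations of
the library.
-/

noncomputable section

namespace Vale.Agent.N273

open Sum Finsupp Vale.Agent.P273
open scoped Classical Nat

variable {V E L N R T J K : Type}

/-- The graph of the library. -/
def DG.gr (G : DG L) : Gr G.vx G.ed L := ⟨G.dec, G.hf⟩

/-- The map on formal combinations. -/
def Phi (L : Type) : (DG L →₀ ℚ) →ₗ[ℚ] F L :=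
  Finsupp.lmapDomain ℚ ℚ fun G => (⟨G.vx, G.ed, G.gr⟩ : P273.DG L)

lemma Phi_single (G : DG L) (c : ℚ) : Phi L (single G c) = dl G.gr c := by
  simp only [Phi, Finsupp.lmapDomain_apply, Finsupp.mapDomain_single, dl]

lemma valid_gr (G : DG L) (g d : ℕ) : G.Valid g d ↔ G.gr.Valid g ∧ G.gr.deg = d :=
  cValid_iff G.dec G.hf g d

lemma Phi_triv (g : ℕ) (L : Type) : Triv g L ≤ (Isub g L).comap (Phi L) := by
  refine Submodule.span_le.2 ?_
  rintro x (⟨G, hG, rfl⟩ | ⟨G, H, p, q, h1, h2, h3, h4, h5, rfl⟩ | ⟨G, v, rfl⟩) <;>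
    change Phi L _ ∈ Isub g L
  · rw [Phi_single]
    exact Isub_of_not_valid (fun h => hG _ ((valid_gr G g _).2 ⟨h, rfl⟩)) 1
  · rw [map_sub, Phi_single, Phi_single]
    exact Gr.Iso.mem ⟨p, q, h1, h2, h3, h4, h5⟩ 1
  · rw [map_sub, Phi_single, Phi_single, ← mk_eq]
    have := mk_dilaton (g := g) G.gr v 1
    rw [dl_eq_smul G.gr (_ + _), map_smul]
    exact this

/-- The map on the strata algebras. -/
def Psi (g : ℕ) (L : Type) : Str g L →ₗ[ℚ] Sq g L :=
  Submodule.mapQ _ _ (Phi L) (Phi_triv g L)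

lemma Psi_cl (g : ℕ) (G : DG L) : Psi g L (cl g G) = mk g L (dl G.gr 1) := by
  rw [cl, Psi, Submodule.mapQ_apply, Phi_single]
  rfl

/-- The labelled graphs of the library. -/
def labEq (L : Type) : Lab L ≃ Σ k m : ℕ, Gr (Fin k) (Fin m) L where
  toFun p := ⟨p.1, p.2.1, p.dg.gr⟩
  invFun p := ⟨p.1, p.2.1, p.2.2.dec, p.2.2.hf⟩
  left_inv _ := rfl
  right_inv _ := rfl

lemma co_eq (g d : ℕ) (A : L → ℕ) (p : Lab L) :
    co g d A p = wt (labEq L p).2.2 g A d /
      (((labEq L p).1.factorial : ℚ) * (labEq L p).2.1.factorial * 2 ^ (labEq L p).2.1) := by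
  have : p.dg.wt g d A = wt (labEq L p).2.2 g A d :=
    cwt_eq (V := Fin p.1) (E := Fin p.2.1) p.2.2.1 p.2.2.2 g d A
  rw [co, this]
  rfl

lemma co_supp [Finite L] (g d : ℕ) (A : L → ℕ) :
    Function.support (co g d A) ⊆ ((supp g A d).map (labEq L).symm.toEmbedding : Set (Lab L)) := by
  intro p hp
  rw [Finset.coe_map]
  refine ⟨labEq L p, ?_, (labEq L).symm_apply_apply p⟩
  by_contra h
  apply hp
  rw [co_eq, not_mem_supp h, zero_div]

/-- **Each relation is a finite sum.** -/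
theorem co_finite [Finite L] (g d : ℕ) (A : L → ℕ) : (Function.support (co g d A)).Finite :=
  (Finset.finite_toSet _).subset (co_supp g d A)

theorem Psi_P {g : ℕ} {x : Str g N} (hx : x ∈ Pix g N) : Psi g N x ∈ Pbar g N := by
  refine (Submodule.span_le (p := (Pbar g N).comap (Psi g N))).2 ?_ hx
  rintro _ ⟨R, T, L, r, u, b, A, γ, d, hR, hT, hL, h1, h2, h3, rfl⟩
  change Psi g N _ ∈ Pbar g N
  rw [finsum_eq_sum_of_support_subset (s := (supp γ A d).map (labEq L).symm.toEmbedding), map_sum,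
    Finset.sum_map]
  · have h4 := mk_mem_Pbar.2 (P273.P.pix (g := g) (⟨r, u, b⟩ : Env R T L N) γ d A hR hT hL h1 h2 h3)
    rw [Env.pix_eq_sum, map_sum] at h4
    convert h4 using 2 with p
    rw [map_smul, Psi_cl, co_eq, dl_eq_smul _ (_ / _), map_smul]
    rfl
  · refine subset_trans (fun p hp => ?_) (co_supp γ d A)
    intro h0
    apply hp
    simp only [h0, zero_smul]

/-- A combination of graphs whose image is not in the span of the library is not in the span. -/
theorem not_mem_P {g : ℕ} {ι : Type} [Fintype ι] (a : ι → ℚ) (G : ι → DG N)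
    (h : ¬ P273.P g (∑ i, dl (G i).gr (a i))) : NotP g (∑ i, a i • cl g (G i)) := by
  intro hx
  apply h
  have h1 := Psi_P hx
  rw [map_sum] at h1
  rw [← mk_mem_Pbar, map_sum]
  convert h1 using 2 with i
  rw [map_smul, Psi_cl, dl_eq_smul, map_smul]

end Vale.Agent.N273

end
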