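import Mathlib

/-!
The strata algebra as a vector space (a quotient of the free vector space on decorated graphs),
Pixton's span, an element of genus 2 with 14 legs, and the elements obtained from it by forgetful
pullback and by gluing moduli spaces of one-pointed curves to legs. Everything here is a definition.
-/

noncomputable section

namespace Vale.Agent.N273

open Sum Finsupp
open scoped Classical Nat

/-- A decorated graph with leg set `L`: vertices `V`, edges `E`, the genus and the kappa decoration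
`dec v` of each vertex (`μ` stands for the pushforward of `∏ ψ^(c+1)`, `c ∈ μ`, under the map that
forgets one additional point for each `c ∈ μ`), and the vertex and the psi exponent `hf y` of each
half-edge `y` (an edge with a side, or a leg). -/
structure DG (L : Type) : Type 1 where
  /-- The vertices. -/
  vx : Type
  /-- The edges. -/
  ed : Type
  /-- Genus and kappa decoration. -/
  dec : vx → ℕ × Multiset ℕ
  /-- Vertex and psi exponent. -/
  hf : (ed × Bool) ⊕ L → vx × ℕ

variable {V E L O R T J K : Type}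

/-- The valence of `v`. -/
def DG.nv (G : DG L) (v : G.vx) : ℕ := Nat.card {y // (G.hf y).1 = v}

/-- The graph is finite, connected, of genus `g` and degree `d`, and all vertices are stable. -/
def DG.Stab (G : DG L) (g d : ℕ) : Prop :=
  Finite G.vx ∧ Finite G.ed ∧ Nonempty G.vx ∧
  (∀ U : Set G.vx, (∀ e, (G.hf (inl (e, true))).1 ∈ U ↔ (G.hf (inl (e, false))).1 ∈ U) →
    U = ∅ ∨ U = Set.univ) ∧
  ∑ᶠ v, (G.dec v).1 + Nat.card G.ed + 1 = g + Nat.card G.vx ∧ (∀ v, 2 < 2 * (G.dec v).1 + G.nv v) ∧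
  Nat.card G.ed + ∑ᶠ v, (G.dec v).2.sum + ∑ᶠ y, (G.hf y).2 = d

/-- Moreover the decorations have degree at most `3g(v)-3+n(v)` at each `v`. -/
def DG.Valid (G : DG L) (g d : ℕ) : Prop :=
  G.Stab g d ∧ ∀ v,
    (G.dec v).2.sum + ∑ᶠ (y) (_ : (G.hf y).1 = v), (G.hf y).2 + 3 ≤ 3 * (G.dec v).1 + G.nv v

/-- The span of the trivial relations: graphs that are not valid are zero, isomorphic graphs are
equal, and an index `0` in the kappa decoration is a number. -/
def Triv (g : ℕ) (L : Type) : Submodule ℚ (DG L →₀ ℚ) :=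
  Submodule.span ℚ {x | (∃ G : DG L, (∀ d, ¬ G.Valid g d) ∧ x = single G 1) ∨
    (∃ (G H : DG L) (p : G.vx → H.vx) (q : G.ed × Bool → H.ed × Bool), p.Bijective ∧ q.Bijective ∧
      (∀ e, (q (e, true)).1 = (q (e, false)).1) ∧ (∀ v, H.dec (p v) = G.dec v) ∧
      (∀ y, H.hf (y.map q id) = (G.hf y).map p id) ∧ x = single G 1 - single H 1) ∨
    ∃ (G : DG L) (v : G.vx),
      x = single ⟨G.vx, G.ed, Function.update G.dec v ((G.dec v).1, 0 ::ₘ (G.dec v).2), G.hf⟩ 1 -
        single G (2 * ((G.dec v).1 : ℚ) - 2 + G.nv v + (G.dec v).2.card)}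

/-- The strata algebra of genus `g` with leg set `L`, as a vector space. -/
abbrev Str (g : ℕ) (L : Type) : Type 1 := (DG L →₀ ℚ) ⧸ Triv g L

/-- The class of a decorated graph in the strata algebra. -/
def cl (g : ℕ) (G : DG L) : Str g L := Submodule.Quotient.mk (single G 1)

/-- The coefficient of `ψ^n` in `ζ^a B_a(ζψ)`, for `a = 0, 1`. -/
def Bs (a : ℕ) (ζ : ℚ) (n : ℕ) : ℚ :=
  (ζ * (1 + 6 * n) / (1 - 6 * n)) ^ a * (-ζ) ^ n * (6 * n) ! / ((2 * n) ! * (3 * n) !)

/-- The coefficient of `x^p y^q` in the edge factor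
`(ζ + ξ - B_0(ζx) ξB_1(ξy) - ζB_1(ζx) B_0(ξy)) / (x + y)`, where `z = (ζ, p)` and `w = (ξ, q)`. -/
def edgeF (z w : ℚ × ℕ) : ℚ :=
  ∑ j ∈ Finset.range (w.2 + 1), (-1) ^ (j + 1) *
    (Bs 0 z.1 (z.2 + 1 + j) * Bs 1 w.1 (w.2 - j) + Bs 1 z.1 (z.2 + 1 + j) * Bs 0 w.1 (w.2 - j))

/-- The coefficient of `κ[μ]` in the vertex factor `κ(T - T B_0(ζT))`. -/
def kapF (μ : Multiset ℕ) (ζ : ℚ) : ℚ :=
  (μ.map fun n => 0 ^ n - Bs 0 ζ n).prod / ∏ n ∈ μ.toFinset, ((μ.count n) ! : ℚ)

/-- The coefficient of the decorated graph in `R^d_{g,A}`, times the order of its automorphism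
group. -/
def DG.wt (G : DG L) (g d : ℕ) (A : L → ℕ) : ℚ :=
  ∑ᶠ (_ : G.Stab g d) (ζ : G.vx → Bool),
    let σ := fun v => cond (ζ v) (1 : ℚ) (-1)
    let t := fun y => (G.hf y).map σ id
    (1 / 2) ^ (Nat.card G.ed + 1) * (∏ᶠ v, σ v ^ ((G.dec v).1 + 1) * kapF (G.dec v).2 (σ v)) *
      (∏ᶠ e, edgeF (t (inl (e, true))) (t (inl (e, false)))) *
      ∏ᶠ x, Bs (A x) (t (inr x)).1 (t (inr x)).2

/-- Decorated graphs with numbered vertices and numbered, oriented edges. -/
def Lab (L : Type) : Type :=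
  Σ k n : ℕ, (Fin k → ℕ × Multiset ℕ) × ((Fin n × Bool) ⊕ L → Fin k × ℕ)

/-- The decorated graph. -/
def Lab.dg (p : Lab L) : DG L := ⟨Fin p.1, Fin p.2.1, p.2.2.1, p.2.2.2⟩

/-- Pixton's relation is `R^d_{g,A} = ∑ p, co g d A p [p.dg]`. -/
def co (g d : ℕ) (A : L → ℕ) (p : Lab L) : ℚ := p.dg.wt g d A / (p.1 ! * p.2.1 ! * 2 ^ p.2.1)

/-- The decorated graph `G` with leg set `L` is multiplied by `ψ_x ^ (β x)` for each leg `x` and
inserted at a vertex of a graph with leg set `O`, other vertices `R` (with decorations `r`) and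
edges `T`; a half-edge of `T` or leg in `O` is in the place of a leg `x : L`, `u y = inl x`, or at a
vertex in `R` with some psi exponent, `u y = inr _`. A leg `x` of `G` that is in no place is
forgotten, with an additional factor `ψ_x`: it becomes a kappa index. -/
def DG.ins (G : DG L) (r : R → ℕ × Multiset ℕ) (u : (T × Bool) ⊕ O → L ⊕ R × ℕ) (β : L → ℕ) :
    DG O :=
  let w := fun y => (u y).elim (fun x => (G.hf (inr x)).map inl (· + β x)) (Prod.map inr id)
  ⟨G.vx ⊕ R, G.ed ⊕ T, Sum.elim (fun v => ((G.dec v).1, (G.dec v).2 +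
      ∑ᶠ (x) (_ : inl x ∉ Set.range u ∧ (G.hf (inr x)).1 = v), {(G.hf (inr x)).2 + β x})) r,
    Sum.elim (fun y => y.1.elim (fun i => (G.hf (inl (i, y.2))).map inl id)
      fun t => w (inl (t, y.2))) fun i => w (inr i)⟩

/-- Pixton's span: all relations `R^d_{γ,A}` with `3d > γ + ∑ A`, times powers of psi classes,
pushed forward under forgetful maps, placed at a vertex of a decorated graph. -/
def Pix (g : ℕ) (O : Type) : Submodule ℚ (Str g O) :=
  Submodule.span ℚ {x | ∃ (R T L : Type) (r : R → ℕ × Multiset ℕ)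
    (u : (T × Bool) ⊕ O → L ⊕ R × ℕ) (β A : L → ℕ) (γ d : ℕ), Finite R ∧ Finite T ∧ Finite L ∧
    (∀ y z x, u y = inl x → u z = inl x → y = z) ∧ (∀ x, A x ≤ 1) ∧ γ + ∑ᶠ x, A x < 3 * d ∧
    x = ∑ᶠ p : Lab L, co γ d A p • cl g (p.dg.ins r u β)}

/-- The element `x` is not in Pixton's span. -/
def NotP (g : ℕ) (x : Str g O) : Prop := x ∉ Pix g O

/-- The undecorated graph with genera `γ v`, where `h` is the vertex of a half-edge or leg. -/
def und (γ : V → ℕ) (h : (E × Bool) ⊕ L → V) : DG L :=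
  ⟨V, E, fun v => (γ v, 0), fun y => (h y, 0)⟩

/-- The vertex at the end of an edge of the theta graph: the first chain has the inner vertices
`t < p`, the second one `p ≤ t < q`, the third one `q ≤ t < 6`; all chains end at `6`. The edge
`inl r` is the first edge of the chain `r`, the edge `inr t` starts at `t`. -/
def hd (p q : ℕ) : Fin 3 ⊕ Fin 6 → Fin 7 :=
  Sum.elim ![if p = 0 then 6 else 0, if p = q then 6 else Fin.ofNat 7 p, Fin.ofNat 7 q]
    fun t => if t.1 + 1 = p ∨ t.1 + 1 = q then 6 else t.succ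

/-- The lengths of the three chains are `2,2,2`, `1,2,3`, `0,3,3`, `1,1,4`, `0,2,4`. -/
def tpq : Fin 5 → ℕ × ℕ := ![(2, 4), (1, 3), (0, 3), (1, 2), (0, 2)]

/-- The index set of the element: the numbering of the legs, the type, and the place of one leg. -/
abbrev Ix : Type := (Bool → Equiv.Perm (Fin 7)) × Fin 5 × Bool

/-- The coefficients of the element. -/
def xa (i : Ix) : ℚ :=
  ((Equiv.Perm.sign (i.1 true) * Equiv.Perm.sign (i.1 false) : ℤ) : ℚ) *
    (![1, -2, 1, 1, -1] : Fin 5 → ℚ) i.2.1 * cond i.2.2 (-1) 1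

/-- The graphs of the element. All chains start at the vertex `none`; each other vertex `some t`
carries the leg `(j, b)` with `i.1 b j = t`, for `b = true` and `b = false`, but if `i.2.2` is true
then the leg `(j, false)` at `some 6` is moved to `none`. -/
def xh (i : Ix) : ((Fin 3 ⊕ Fin 6) × Bool) ⊕ (Fin 7 × Bool) → Option (Fin 7) :=
  Sum.elim (fun y => cond y.2 (y.1.elim (fun _ => none) fun t => some t.castSucc)
    (some (hd (tpq i.2.1).1 (tpq i.2.1).2 y.1))) fun x =>
      if i.2.2 = true ∧ x.2 = false ∧ i.1 x.2 x.1 = 6 then none else some (i.1 x.2 x.1)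

/-- The graph `h` with rational vertices gets new legs `K` at the vertices `p k`; then the legs
`e (inr j)` are glued to new vertices of genus `γ j` and valence one, and the other legs `e (inl n)`
are named by `O`. -/
def ext (h : (E × Bool) ⊕ L → V) (p : K → V) (e : O ⊕ J → L ⊕ K) (γ : J → ℕ) : DG O :=
  let w : O ⊕ J → V ⊕ J := fun x => inl ((e x).elim (fun l => h (inr l)) p)
  und (Sum.elim (fun _ => 0) γ) (Sum.elim (fun y : (E ⊕ J) × Bool => y.1.elim
    (fun d => inl (h (inl (d, y.2)))) fun j => cond y.2 (inr j) (w (inr j))) fun n => w (inl n))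

/-- The element of genus 2 with 14 legs. -/
def xel : Str 2 (Fin 7 × Bool) := ∑ i, xa i • cl 2 (und (fun _ => 0) (xh i))

/-- The pullback of the element under the map that forgets the legs `K`, glued at the legs
`e (inr j)` to the moduli spaces of one-pointed curves of genus `γ j`. -/
def yel [Fintype K] (g : ℕ) (e : O ⊕ J → (Fin 7 × Bool) ⊕ K) (γ : J → ℕ) : Str g O :=
  ∑ i, ∑ p : K → Option (Fin 7), xa i • cl g (ext (xh i) p e γ)

end Vale.Agent.N273

end
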