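import Vale.Agent.N273.Step

/-!
Adding finitely many legs, and gluing finitely many vertices of different genera.
-/

noncomputable section

namespace Vale.Agent.N273

open Sum Vale.Agent.P273
open scoped Classical

variable {V E L L' N J K : Type}

/-- Add the legs `K`. -/
def legs (G : Gr V E L) (p : K → V) : Gr V E (L ⊕ K) :=
  ⟨G.dec, Sum.elim (fun y => G.hf (inl y)) (Sum.elim (fun x => G.hf (inr x)) fun k => (p k, 0))⟩

/-- Glue vertices to the legs `J`. -/
def tails (G : Gr V E (N ⊕ J)) (γ : J → ℕ) : Gr (V ⊕ J) (E ⊕ J) N :=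
  ⟨Sum.elim G.dec fun j => (γ j, 0), Sum.elim (fun y => y.1.elim
    (fun d => (G.hf (inl (d, y.2))).map inl id)
    fun j => cond y.2 (inr j, 0) ((G.hf (inr (inr j))).map inl id))
    fun n => (G.hf (inr (inl n))).map inl id⟩

lemma rel_rel (G : Gr V E L) (e : L' ≃ L) : (G.rel e).rel e.symm = G := by
  refine Gr.ext' (fun _ => rfl) ?_
  rintro (y | x)
  · rfl
  · exact congrArg (fun z => G.hf (inr z)) (e.apply_symm_apply x)

theorem step_rel' {ι : Type} [Fintype ι] {g : ℕ} {a : ι → ℚ} [Finite L] (e : L' ≃ L)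
    {G : ι → Gr V E L} (H : P g (∑ i, dl ((G i).rel e) (a i))) : P g (∑ i, dl (G i) (a i)) := by
  have : Finite L' := Finite.of_equiv _ e.symm
  simpa only [rel_rel] using step_rel e.symm.bijective H

theorem legs_all {ι : Type} [Fintype ι] {g : ℕ} {a : ι → ℚ} [Finite L] [Fintype V] [Finite E]
    (hg : 2 ≤ g) {G : ι → Gr V E L} (h0 : ∀ i v, ((G i).dec v).2 = 0) (K : Type)
    [Finite K] : ∀ (_ : Finite K) [Fintype (K → V)], P g (∑ q : ι × (K → V), dl (legs (G q.1) q.2) (a q.1)) →
      P g (∑ i, dl (G i) (a i)) := by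
  induction K using Finite.induction_empty_option with
  | @of_equiv α β e ih =>
    intro _ _ H
    have : Finite α := Finite.of_equiv _ e.symm
    have := Fintype.ofFinite (α → V)
    apply ih inferInstance
    have h1 := step_rel (j := (Sum.map id e : L ⊕ α → L ⊕ β))
      (Function.bijective_id.sumMap e.bijective) H
    rw [← Equiv.sum_comp ((Equiv.refl ι).prodCongr (e.arrowCongr (Equiv.refl V)))] at h1
    convert h1 using 3 with q
    · refine Gr.ext' (fun _ => rfl) ?_
      rintro (y | x | k)
      · rfl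
      · rfl
      · simp [legs, Gr.rel]
    · rfl
  | h_empty =>
    intro _ _ H
    have h1 := step_rel (j := (inl : L → L ⊕ PEmpty.{1})) (Equiv.sumEmpty L PEmpty).symm.bijective H
    rw [Fintype.sum_prod_type] at h1
    convert h1 using 2 with i
    rw [Fintype.sum_unique]
    congr 1
    refine Gr.ext' (fun _ => rfl) ?_
    rintro (y | x) <;> rfl
  | @h_option α _ ih =>
    intro _ _ H
    apply ih inferInstance
    refine step_leg (g := g) (by omega) (G := fun q : ι × (α → V) => legs (G q.1) q.2)
      (a := fun q => a q.1) (fun q v => h0 q.1 v) ?_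
    let e : Option (L ⊕ α) ≃ L ⊕ Option α :=
      ⟨fun o => o.elim (inr none) (Sum.map id some),
        Sum.elim (fun x => some (inl x)) fun o => o.map inr,
        by rintro (_ | _ | _) <;> rfl, by rintro (_ | _ | _) <;> rfl⟩
    have h1 := step_rel e.bijective H
    let t : (ι × (α → V)) × V ≃ ι × (Option α → V) :=
      ⟨fun q => (q.1.1, fun o => o.elim q.2 q.1.2), fun q => ((q.1, fun k => q.2 (some k)), q.2 none),
        fun _ => rfl, fun q => Prod.ext rfl (funext fun o => by cases o <;> rfl)⟩
    rw [← Equiv.sum_comp t] at h1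
    convert h1 using 3 with q
    · refine Gr.ext' (fun v => ?_) ?_
      · change Function.update (G q.1.1).dec q.2 (((G q.1.1).dec q.2).1, 0) v = (G q.1.1).dec v
        rw [← h0 q.1.1 q.2, Prod.mk.eta, Function.update_eq_self]
      · rintro (y | _ | x | k) <;> rfl
    · rfl

theorem tails_all {ι : Type} [Fintype ι] {a : ι → ℚ} (J : Type) [Finite J] :
    ∀ [Fintype J] (N : Type) [Finite N] (g : ℕ) (G : ι → Gr V E (N ⊕ J)) (γ : J → ℕ),
      γ.Injective → (∀ j, 3 ≤ γ j) → (∀ i v j, ((G i).dec v).1 ≠ γ j) →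
      P (g + ∑ j, γ j) (∑ i, dl (tails (G i) γ) (a i)) → P g (∑ i, dl (G i) (a i)) := by
  induction J using Finite.induction_empty_option with
  | @of_equiv α β e ih =>
    intro _ N _ g G γ h1 h2 h3 H
    have : Finite α := Finite.of_equiv _ e.symm
    have := Fintype.ofFinite α
    refine step_rel' ((Equiv.refl N).sumCongr e) (ih N g _ (γ ∘ e) (h1.comp e.injective)
      (fun j => h2 _) (fun i v j => h3 i v _) ?_)
    rw [show ∑ j, (γ ∘ e) j = ∑ j, γ j from e.sum_comp γ]
    refine step_iso (fun i => ?_) H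
    refine Gr.Iso.mk' ((Equiv.refl V).sumCongr e.symm) ((Equiv.refl E).sumCongr e.symm) ?_ ?_ ?_
    · rintro (v | j)
      · rfl
      · simp [tails]
    · rintro (d | j) s
      · rfl
      · cases s
        · simp [tails, Gr.rel, Prod.map]
        · rfl
    · intro n
      rfl
  | h_empty =>
    intro _ N _ g G γ h1 h2 h3 H
    rw [Finset.sum_of_isEmpty, add_zero] at H
    refine step_rel' (Equiv.sumEmpty N PEmpty).symm (step_iso (fun i => ?_) H)
    refine Gr.Iso.mk' (Equiv.sumEmpty V PEmpty) (Equiv.sumEmpty E PEmpty) ?_ ?_ ?_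
    · rintro (v | j)
      · rfl
      · exact j.elim
    · rintro (d | j) s
      · rfl
      · exact j.elim
    · intro n
      rfl
  | @h_option α _ ih =>
    intro inst N _ g G γ h1 h2 h3 H
    let e : Option N ⊕ α ≃ N ⊕ Option α :=
      ⟨Sum.elim (fun o => o.elim (inr none) inl) fun k => inr (some k),
        Sum.elim (fun x => inl (some x)) fun o => o.elim (inl none) inr,
        by rintro ((_ | _) | _) <;> rfl, by rintro (_ | _ | _) <;> rfl⟩
    refine step_rel' e (ih (Option N) g _ (γ ∘ some) (h1.comp (Option.some_injective α))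
      (fun j => h2 _) (fun i v j => h3 i v _) (step_tail (h2 none) ?_ ?_))
    · rintro i (v | j)
      · exact h3 i v none
      · exact fun h => Option.some_ne_none j (h1 h)
    · have h4 : g + ∑ j, (γ ∘ some) j + γ none = g + ∑ j, γ j := by
        rw [Subsingleton.elim inst instFintypeOption, Fintype.sum_option, add_assoc, add_comm (γ _)]
        rfl
      rw [h4]
      refine step_iso (fun i => ?_) H
      let s : ∀ X : Type, X ⊕ Option α ≃ Option (X ⊕ α) := fun X =>
        ⟨Sum.elim (fun x => some (inl x)) fun o => o.map inr,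
          fun o => o.elim (inr none) (Sum.map id some),
          by rintro (_ | _ | _) <;> rfl, by rintro (_ | _ | _) <;> rfl⟩
      refine Gr.Iso.mk' (s V) (s E) ?_ ?_ ?_
      · rintro (v | _ | j) <;> rfl
      · rintro (d | _ | j) (_ | _) <;> rfl
      · intro n
        rfl

end Vale.Agent.N273

end
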