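import Vale.Agent.N273.Br
import Vale.Agent.N273.Many
import Vale.Agent.P273.H503.Elt

/-!
The elements are not in Pixton's span.
-/

noncomputable section

namespace Vale.Agent.N273

open Sum Vale.Agent.P273
open scoped Classical

variable {V E L N J K : Type}

lemma xa_eq : xa = H503.xa := rfl

lemma xh_eq : xh = H503.xh := rfl

/-- The part of the final statement of the library about Pixton's relations. -/
def Out : Prop := ∃ s : Z.Fn (Fin 7 × Bool), Z.Pix 2 9 s ∧
  ∑ i, H503.xa i * s _ _ (fun _ => (0, 0)) (fun y => (H503.xh i y, 0)) ≠ 0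

lemma base (h : Out) : ¬ P273.P 2 (∑ i, dl (und (fun _ => 0) (xh i)).gr (xa i)) := by
  obtain ⟨s, h1, h2⟩ := h
  intro H
  have h3 := evl_P (s := s) (g := 2) (d := 9) h1 H
  rw [map_sum] at h3
  apply h2
  rw [← h3]
  refine Finset.sum_congr rfl fun i _ => ?_
  rw [evl_dl]
  rfl

theorem X_not (h : Out) : NotP 2 xel := not_mem_P _ _ (base h)

lemma ext_gr (h : (E × Bool) ⊕ L → V) (p : K → V) (e : N ⊕ J → L ⊕ K) (γ : J → ℕ) :
    (ext h p e γ).gr = tails ((legs (und (fun _ => 0) h).gr p).rel e) γ := by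
  have key : ∀ x : N ⊕ J, ((inl ((e x).elim (fun l => h (inr l)) p), 0) : (V ⊕ J) × ℕ) =
      (((legs (und (fun _ => 0) h).gr p).rel e).hf (inr x)).map inl id := by
    intro x
    change _ = ((legs (und (fun _ => 0) h).gr p).hf (inr (e x))).map inl id
    rcases e x with l | k <;> rfl
  refine Gr.ext' ?_ ?_
  · rintro (v | j) <;> rfl
  · rintro (⟨d | j, _ | _⟩ | n)
    · rfl
    · rfl
    · exact key (inr j)
    · rfl
    · exact key (inl n)

theorem Y_not (h : Out) [Fintype J] [Fintype K] (e : N ⊕ J ≃ (Fin 7 × Bool) ⊕ K) (γ : J → ℕ)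
    (h1 : γ.Injective) (h2 : ∀ j, 3 ≤ γ j) : NotP _ (yel (2 + ∑ j, γ j) e γ) := by
  have : Finite (N ⊕ J) := Finite.of_equiv _ e.symm
  have : Finite N := Finite.of_injective (inl : N → N ⊕ J) inl_injective
  rw [yel, ← Fintype.sum_prod_type' fun i (p : K → Option (Fin 7)) =>
    xa i • cl (2 + ∑ j, γ j) (ext (xh i) p e γ)]
  refine not_mem_P (fun q : Ix × (K → Option (Fin 7)) => xa q.1) _ fun H => base h ?_
  refine legs_all le_rfl (fun _ _ => rfl) K inferInstance (step_rel' e ?_)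
  refine tails_all J N 2 _ γ h1 h2 (fun i v j h3 => ?_) ?_
  · have h4 : 0 = γ j := h3
    have := h2 j
    omega
  · simp only [ext_gr] at H
    exact H

lemma ext_valid {h : (E × Bool) ⊕ L → V} {g d : ℕ} (H : (und (fun _ => 0) h).Valid g d)
    [Finite L] [Finite K] [Fintype J] (p : K → V) (e : N ⊕ J ≃ L ⊕ K) {γ : J → ℕ}
    (h2 : ∀ j, 3 ≤ γ j) : (ext h p e γ).Valid (g + ∑ j, γ j) (d + Fintype.card J) := by
  obtain ⟨⟨hV, hE, ⟨v0⟩, hc, hg, hs, hd⟩, -⟩ := H
  have hV : Finite V := hV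
  have hE : Finite E := hE
  have : Finite (N ⊕ J) := Finite.of_equiv _ e.symm
  have : Finite N := Finite.of_injective (inl : N → N ⊕ J) inl_injective
  have := Fintype.ofFinite V
  have hn : ∀ v : V, 3 ≤ (ext h p e γ).nv (inl v) := by
    intro v
    have h3 : 2 < 2 * 0 + (und (fun _ => 0) h).nv v := hs v
    let t : N ⊕ J → ((E ⊕ J) × Bool) ⊕ N := Sum.elim inr fun j => inl (inr j, false)
    let i : (E × Bool) ⊕ L → ((E ⊕ J) × Bool) ⊕ N :=
      Sum.elim (fun y => inl (inl y.1, y.2)) fun l => t (e.symm (inl l))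
    have ht : ∀ x, ((ext h p e γ).hf (t x)).1 = inl ((e x).elim (fun l => h (inr l)) p) := by
      rintro (n | j) <;> rfl
    have hi : ∀ y, ((ext h p e γ).hf (i y)).1 = inl (h y) := by
      rintro (y | l)
      · rfl
      · exact (ht _).trans (by rw [e.apply_symm_apply]; rfl)
    have htj : t.Injective := by
      rintro (n | j) (n' | j') hh <;> simp_all [t]
    have hinj : i.Injective := by
      rintro (⟨a, s⟩ | l) (⟨b, s'⟩ | l') hh
      · simpa [i] using hh
      · rcases hx : e.symm (inl l') with n | j <;> simp [i, t, hx] at hh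
      · rcases hx : e.symm (inl l) with n | j <;> simp [i, t, hx] at hh
      · simpa using htj hh
    have : Finite {y // ((ext h p e γ).hf y).1 = inl v} :=
      inferInstanceAs (Finite {y : ((E ⊕ J) × Bool) ⊕ N // ((ext h p e γ).hf y).1 = inl v})
    have h4 : (und (fun _ => 0) h).nv v ≤ (ext h p e γ).nv (inl v) :=
      Nat.card_le_card_of_injective (fun y => ⟨i y.1, (hi y.1).trans (congrArg inl y.2)⟩)
        fun a b hab => Subtype.ext (hinj (congrArg Subtype.val hab))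
    omega
  have z1 : ∀ v, ((ext h p e γ).dec v).2 = 0 := fun _ => rfl
  have z2 : ∀ y, ((ext h p e γ).hf y).2 = 0 := fun _ => rfl
  refine ⟨⟨inferInstanceAs (Finite (V ⊕ J)), inferInstanceAs (Finite (E ⊕ J)), ⟨inl v0⟩,
    fun s hs' => ?_, ?_, ?_, ?_⟩, ?_⟩
  · have h5 : ∀ j, inr j ∈ s ↔ inl ((e (inr j)).elim (fun l => h (inr l)) p) ∈ s :=
      fun j => hs' (inr j)
    rcases hc (inl ⁻¹' s) fun a => hs' (inl a) with h6 | h6
    · refine Or.inl (Set.eq_empty_of_forall_notMem ?_)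
      have h7 : ∀ v : V, inl v ∉ s := fun v hv => (h6 ▸ hv : v ∈ (∅ : Set V))
      rintro (v | j)
      · exact h7 v
      · exact fun hj => h7 _ ((h5 j).1 hj)
    · refine Or.inr (Set.eq_univ_of_forall ?_)
      have h7 : ∀ v : V, inl v ∈ s := fun v => (h6 ▸ Set.mem_univ v : v ∈ inl ⁻¹' s)
      rintro (v | j)
      · exact h7 v
      · exact (h5 j).2 (h7 _)
  · have hg' : ∑ᶠ _ : V, 0 + Nat.card E + 1 = g + Nat.card V := hg
    change ∑ᶠ v : V ⊕ J, Sum.elim (fun _ => 0) γ v + Nat.card (E ⊕ J) + 1 =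
      g + ∑ j, γ j + Nat.card (V ⊕ J)
    rw [finsum_eq_sum_of_fintype, Fintype.sum_sum_type, Nat.card_sum, Nat.card_sum]
    simp only [finsum_zero, Sum.elim_inl, Sum.elim_inr, Finset.sum_const_zero] at hg' ⊢
    omega
  · rintro (v | j)
    · have := hn v
      omega
    · have := h2 j
      change 2 < 2 * γ j + _
      omega
  · have hd' : Nat.card E + ∑ᶠ _ : V, (0 : Multiset ℕ).sum +
        ∑ᶠ _ : (E × Bool) ⊕ L, 0 = d := hd
    simp only [z1, z2, Multiset.sum_zero, finsum_zero, add_zero] at hd' ⊢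
    change Nat.card (E ⊕ J) = _
    rw [Nat.card_sum, hd', Nat.card_eq_fintype_card]
  · simp only [z1, z2, Multiset.sum_zero, finsum_zero, zero_add]
    rintro (v | j)
    · have := hn v
      omega
    · have := h2 j
      change 3 ≤ 3 * γ j + _
      omega

lemma sum_three (j : ℕ) : 2 * ∑ t : Fin j, (3 + t.1) = j * (j + 5) := by
  induction j with
  | zero => rfl
  | succ j ih =>
    rw [Fin.sum_univ_castSucc, mul_add]
    simp only [Fin.val_castSucc, Fin.val_last]
    rw [ih]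
    ring

theorem range (g n j : ℕ) (h1 : 14 ≤ n + j) (h2 : j = 0 → g = 2) (h3 : 4 + j * (j + 5) ≤ 2 * g) :
    ∃ (k : ℕ) (_ : Fin n ⊕ Fin j ≃ (Fin 7 × Bool) ⊕ Fin k) (γ : Fin j → ℕ), γ.Injective ∧
      (∀ t, 3 ≤ γ t) ∧ 2 + ∑ t, γ t = g := by
  refine ⟨n + j - 14, Fintype.equivOfCardEq (by simp; omega), ?_⟩
  have h4 := sum_three j
  cases j with
  | zero => exact ⟨fun t => t.elim0, fun t => t.elim0, fun t => t.elim0, by simp [h2 rfl]⟩
  | succ m =>
    refine ⟨fun t => 3 + t.1 + if t = Fin.last m then g - 2 - ∑ t : Fin (m + 1), (3 + t.1) else 0,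
      fun s t hst => ?_, fun t => le_add_right (le_add_right le_rfl), ?_⟩
    · have hs := s.2
      have ht := t.2
      simp only [Fin.ext_iff, Fin.val_last] at hst ⊢
      split_ifs at hst <;> omega
    · rw [Finset.sum_add_distrib, Finset.sum_ite_eq', if_pos (Finset.mem_univ _)]
      omega

theorem Y_range (h : Out) (g n j : ℕ) (h1 : 14 ≤ n + j) (h2 : j = 0 → g = 2)
    (h3 : 4 + j * (j + 5) ≤ 2 * g) :
    ∃ (k : ℕ) (e : Fin n ⊕ Fin j ≃ (Fin 7 × Bool) ⊕ Fin k) (γ : Fin j → ℕ),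
      2 + ∑ t, γ t = g ∧ NotP g (yel g e γ) := by
  obtain ⟨k, e, γ, h4, h5, rfl⟩ := range g n j h1 h2 h3
  exact ⟨k, e, γ, rfl, Y_not h e γ h4 h5⟩

end Vale.Agent.N273

end
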