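import Vale.Agent.P273.Bdl.B1

/-!
Three steps that keep a combination of graphs outside of Pixton's span: relabelling, adding a leg
in all possible places, and gluing a vertex of a new genus `h ≥ 3` to a leg.
-/

noncomputable section

namespace Vale.Agent.N273

open Sum Vale.Agent.P273
open scoped Classical

variable {V E V' E' L L' N R T ι : Type}

lemma plus_sum_eq [Finite L] (A : L → ℕ) (J : Set L) (a : ℕ) :
    ∑ᶠ x, (Option.elim' a (fun x : {x // x ∉ J} => A x.1) : Option {x // x ∉ J} → ℕ) x +
      ∑ᶠ x : {x // x ∉ Set.range (Subtype.val : {x // x ∉ J} → L)}, A x = a + ∑ᶠ x, A x := by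
  have := Fintype.ofFinite L
  rw [finsum_eq_sum_of_fintype, Fintype.sum_option, finsum_eq_sum_of_fintype,
    finsum_eq_sum_of_fintype, add_assoc]
  congr 1
  change ∑ x : {x // x ∉ J}, A x.1 + _ = _
  rw [← Finset.sum_subtype (p := fun x => x ∉ J) (f := A) (Finset.univ.filter fun x => x ∉ J)
    (by simp only [Finset.mem_filter, Finset.mem_univ, true_and, implies_true]),
    ← Finset.sum_subtype (p := fun x => x ∉ Set.range (Subtype.val : {x // x ∉ J} → L)) (f := A)
    (Finset.univ.filter fun x => ¬ x ∉ J) (by simp)]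
  exact Finset.sum_filter_add_sum_filter_not _ _ _

theorem lam_pix_mem3 {g h : ℕ} (hh : 3 ≤ h) [Finite R] [Finite T] [Finite L] (Q : Env R T L N)
    (hQ : ∀ y z x, Q.use y = inl x → Q.use z = inl x → y = z) (γ d : ℕ) (A : L → ℕ)
    (hA : ∀ x, A x ≤ 1) (hγ : γ + ∑ᶠ x, A x < 3 * d) :
    lam g h N (Q.pix γ A d) ∈ Pbar g (Option N) := by
  have := Fintype.ofFinite T
  have := Fintype.ofFinite {J : Set L // Q.Allowed J}
  rw [Env.pix_eq_sum, map_sum]
  have h1 : ∀ p ∈ supp γ A d, lam g h N (dl (Q.graft p.2.2)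
      (wt p.2.2 γ A d / (p.1.factorial * p.2.1.factorial * 2 ^ p.2.1))) =
      -((wt p.2.2 γ A d / (p.1.factorial * p.2.1.factorial * 2 ^ p.2.1)) •
        ∑ y : Fin p.2.1 × Bool, term g h (Q.graft p.2.2) (inl y.1, y.2) +
      ∑ y : T × Bool, (wt p.2.2 γ A d / (p.1.factorial * p.2.1.factorial * 2 ^ p.2.1)) •
        term g h (Q.graft p.2.2) (inr y.1, y.2)) := by
    intro p _
    rw [lam_dl, lamG_graft, smul_neg, smul_add,
      Finset.smul_sum (s := (Finset.univ : Finset (T × Bool)))]
  rw [Finset.sum_congr rfl h1, Finset.sum_neg_distrib, Finset.sum_add_distrib]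
  apply Submodule.neg_mem
  apply Submodule.add_mem
  · by_cases hγh : γ < h
    · rw [Finset.sum_eq_zero]
      · exact Submodule.zero_mem _
      · intro p _
        by_cases hw : wt p.2.2 γ A d = 0
        · rw [hw, zero_div, zero_smul]
        · rw [Finset.sum_eq_zero, smul_zero]
          intro y _
          apply term_not
          intro ht
          have h2 := ht.gen
          rw [Env.graft_hf_inl, Env.graft_dec_inl] at h2
          have h3 := (wt_stab hw).gen_le (p.2.2.hf (inl (y.1, y.2))).1
          simp only at h2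
          omega
    · obtain ⟨γ, rfl⟩ : ∃ γ', γ = γ' + h := ⟨γ - h, by omega⟩
      obtain ⟨d, rfl⟩ : ∃ d', d = d' + 1 := ⟨d - 1, by omega⟩
      rw [relTail_sum g h (by omega)]
      apply Submodule.sum_mem
      intro J _
      apply Submodule.smul_mem
      rw [mk_mem_Pbar]
      refine P.pix (Q.plus J.1) γ d _ inferInstance inferInstance inferInstance
        (J.2.plus_inj hQ) ?_ ?_
      · rintro (_ | x)
        · exact par_le h A J.1
        · exact hA x.1
      · have h4 := plus_sum_eq A J.1 (par h A J.1)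
        have h5 : par h A J.1 + 3 ≤ h +
            ∑ᶠ x : {x // x ∉ Set.range (Subtype.val : {x // x ∉ J.1} → L)}, A x := by
          unfold par
          split_ifs with h6
          · omega
          · rw [Nat.not_even_iff_odd] at h6
            obtain ⟨t, ht⟩ := h6
            omega
        omega
  · rw [Finset.sum_comm]
    apply Submodule.sum_mem
    intro y _
    rcases hu : Q.use (inl y) with x | ⟨r, c⟩
    · rw [Finset.sum_eq_zero]
      · exact Submodule.zero_mem _
      · intro p _
        by_cases hw : wt p.2.2 γ A d = 0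
        · rw [hw, zero_div, zero_smul]
        · rw [term_not, smul_zero]
          intro ht
          exact mixed_absurd hh hγ hw hu ht
    · exact envTail_mem Q hQ γ d h A hA hγ y r c hu

theorem lam_P_mem3 {g h : ℕ} (hh : 3 ≤ h) {x : F N} (hx : P (g + h) x) :
    lam g h N x ∈ Pbar g (Option N) := by
  induction hx with
  | triv x hx =>
    rw [lam_triv (by omega) hx]
    exact Submodule.zero_mem _
  | pix Q γ d A hR hT hL hQ hA hγ => exact lam_pix_mem3 hh Q hQ γ d A hA hγ
  | lin x y c hx hy hx' hy' =>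
    rw [map_add, map_smul]
    exact Submodule.add_mem _ hx' (Submodule.smul_mem _ _ hy')

lemma lamG_tail' {g h : ℕ} (G : Gr V E (Option L)) (key : ∀ v, (G.dec v).1 ≠ h) :
    lamG g h (G.tail h) = - mk g (Option L) (dl G 1) := by
  rw [lamG, finsum_eq_single _ (y0 E), term_of (isTail_tail G h)]
  · rw [← mk_iso (iso_cut_tail G h)]
    have : Multiset.card ((G.tail h).dec ((G.tail h).hf (inl (y0 E))).1).2 = 0 := rfl
    rw [this, zfac_zero, one_smul]
  · intro y hy
    refine term_not fun ht => hy ?_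
    rcases y with ⟨_ | e, _ | _⟩
    · exact absurd ht.gen (key (G.hf (inr none)).1)
    · rfl
    · exact absurd ht.gen (key (G.hf (inl (e, false))).1)
    · exact absurd ht.gen (key (G.hf (inl (e, true))).1)

variable [Fintype ι] {g : ℕ} {a : ι → ℚ}

/-- Gluing a vertex of a new genus. -/
theorem step_tail {h : ℕ} (hh : 3 ≤ h) {G : ι → Gr V E (Option L)}
    (key : ∀ i v, ((G i).dec v).1 ≠ h) (H : P (g + h) (∑ i, dl ((G i).tail h) (a i))) :
    P g (∑ i, dl (G i) (a i)) := by
  have h1 := Submodule.neg_mem _ (lam_P_mem3 hh H)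
  rw [← mk_mem_Pbar]
  convert h1 using 1
  rw [map_sum, map_sum, ← Finset.sum_neg_distrib]
  refine Finset.sum_congr rfl fun i _ => ?_
  rw [lam_dl, lamG_tail' _ (key i), smul_neg, neg_neg, ← map_smul, smul_dl, mul_one]

/-- Isomorphic graphs. -/
theorem step_iso {G : ι → Gr V E L} {G' : ι → Gr V' E' L} (h : ∀ i, (G i).Iso (G' i))
    (H : P g (∑ i, dl (G i) (a i))) : P g (∑ i, dl (G' i) (a i)) := by
  rw [← mk_mem_Pbar, map_sum] at H ⊢
  convert H using 2 with i
  exact (mk_iso (h i) _).symm

/-- Relabelling. -/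
theorem step_rel [Finite L] [Finite L'] {j : L' → L} (hj : j.Bijective) {G : ι → Gr V E L}
    (H : P g (∑ i, dl (G i) (a i))) : P g (∑ i, dl ((G i).rel j) (a i)) := by
  have := P_relF hj H
  rw [map_sum] at this
  simpa only [relF_dl] using this

/-- Adding a leg. -/
theorem step_leg [Finite L] [Fintype V] [Finite E] (hg : 2 < 2 * g + Nat.card L)
    {G : ι → Gr V E L} (h0 : ∀ i v, ((G i).dec v).2 = 0)
    (H : P g (∑ p : ι × V, dl ((G p.1).addLeg p.2 0 0) (a p.1))) : P g (∑ i, dl (G i) (a i)) := by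
  have h1 := P_pushF H
  rw [← mk_mem_Pbar, map_sum, map_sum, Fintype.sum_prod_type] at h1
  have h2 : ∀ i, ∑ v, mk g L (pushF L (dl ((G i).addLeg v 0 0) (a i))) =
      (2 * (g : ℚ) - 2 + Nat.card L) • mk g L (dl (G i) (a i)) := by
    intro i
    have h3 : ∀ v, mk g L (pushF L (dl ((G i).addLeg v 0 0) (a i))) =
        (2 * (((G i).dec v).1 : ℚ) - 2 + (G i).nv v) • mk g L (dl (G i) (a i)) := by
      intro v
      have := mk_dilaton (g := g) (G i) v (a i)
      rw [h0 i v] at this
      rw [pushF_dl, pushG_addLeg, this]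
      simp
    rw [Finset.sum_congr rfl fun v _ => h3 v, ← Finset.sum_smul]
    by_cases hG : (G i).Valid g
    · rw [hG.2.2.1.sum_chi inferInstance]
    · rw [mk_invalid hG, smul_zero, smul_zero]
  rw [Finset.sum_congr rfl fun i _ => h2 i, ← Finset.smul_sum, ← map_sum] at h1
  have hne : (2 * (g : ℚ) - 2 + Nat.card L) ≠ 0 := by
    have : (2 : ℚ) < 2 * g + Nat.card L := by exact_mod_cast hg
    intro h
    linarith only [this, h]
  have h4 := Submodule.smul_mem _ (2 * (g : ℚ) - 2 + Nat.card L)⁻¹ h1
  rwa [smul_smul, inv_mul_cancel₀ hne, one_smul, mk_mem_Pbar] at h4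

end Vale.Agent.N273

end
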